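/-
helper91 — S0175 project, Part II, package HY-a (structure / measurability fields of
`TwoShellHyp` for the concrete two-shell data of `Crest.Agent.Helper32.GeomDefs`), CORE.

Everything of HY-a is proved here.  Only two facts of other packages enter, as explicit
hypotheses in their Spec shapes:
* `Measurable (wA s w2)` (package RG1), for `geomH_measB`, `geomH_measg`, `geomH_measu`;
* `psiPlus s w2 (bplus s w2 x) = x` on `Adom s w2` (package RG3), for `geomH_injB`.
`PhiA_mem`, `geomH_perA/perB`, `geomH_disj`, `geomH_measc`, `geomH_symm12/23` and `PhiB_shift`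
need nothing beyond `GoodParams` (`PhiB_shift` and the periodicity hold for all parameters).
`HYa.lean` states the results verbatim as in `Helper32.GeomSpec`.
-/
import Crest.Agent.Helper32.GeomDefs
import Crest.Agent.Helper35.Geom.DI
import Crest.Agent.Helper42.Geom.RG3Core
import Crest.Agent.Helper76.Geom.HCCore
import Crest.Agent.Helper82.Geom.HYbCore

set_option autoImplicit false
open MeasureTheory Set
open scoped ENNReal
open Crest.AnalysisR.OT
open Crest.Agent.Helper32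

namespace Crest.Agent.Helper91

section HYaCore
variable {k : ℕ}

/-! ### elementary bounds on the root function `wA` (no shape calculus needed) -/

theorem wMin_pos' (s : ℝ) : 0 < wMin s := by
  unfold wMin
  apply Real.sqrt_pos.2
  have h : (0:ℝ) < (2:ℝ) ^ (s + 2) := Real.rpow_pos_of_pos (by norm_num) _
  positivity

theorem wMin_le_wroot (s w2 ζ e : ℝ) : wMin s ≤ wroot s w2 ζ e := by
  unfold wroot
  split_ifs with h
  · exact (Classical.choose_spec h).1.le
  · exact le_rfl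

theorem wroot_le (s w2 ζ e : ℝ) (hw2 : wMin s < w2) : wroot s w2 ζ e ≤ w2 := by
  unfold wroot
  split_ifs with h
  · exact (Classical.choose_spec h).2.1.le
  · exact hw2.le

theorem wA_pos (s w2 : ℝ) (x : MS k) : 0 < wA s w2 x :=
  (wMin_pos' s).trans_le (wMin_le_wroot s w2 _ _)

theorem wA_le (s w2 : ℝ) (hw2 : wMin s < w2) (x : MS k) : wA s w2 x ≤ w2 :=
  wroot_le s w2 _ _ hw2

theorem wA_le_one (s w2 : ℝ) (hw2 : wMin s < w2) (hw2' : 2 * w2 ^ 2 < 1) (x : MS k) :
    wA s w2 x ≤ 1 := by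
  have h := wA_le s w2 hw2 x
  have h0 : 0 < w2 := (wMin_pos' s).trans hw2
  nlinarith

/-! ### the torus lies in the domain of the contact maps -/

theorem torus_subset_Adom {s w2 ε : ℝ} (hp : GoodParams s w2 ε) :
    (torus ε : Set (MS k)) ⊆ Adom s w2 := by
  intro x hx
  obtain ⟨h1, h2, h3⟩ := Helper82.torus_bounds hp.hε hx
  have hε := hp.hε
  refine ⟨?_, ?_⟩
  · intro h0
    rw [h0, norm_zero] at h1
    nlinarith
  · have hd := hp.hdom
    show shF s w2 (‖x.1‖ ^ 2) (‖x.2‖ ^ 2) < 0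
    unfold shF
    have e1 : ‖x.1‖ ^ 2 / (4 * w2 ^ 4) ≤ 3 * ε / (4 * w2 ^ 4) :=
      div_le_div_of_nonneg_right h2.le (by positivity)
    have e2 : 4 * ‖x.2‖ ^ 2 / (2 * w2 ^ 2 + 1) ^ 2 ≤ 4 * ε ^ 2 / (2 * w2 ^ 2 + 1) ^ 2 := by
      apply div_le_div_of_nonneg_right _ (by positivity)
      have : ‖x.2‖ ^ 2 ≤ ε ^ 2 := by nlinarith [norm_nonneg x.2]
      linarith
    linarith

theorem PhiA_mem_torus (ε : ℝ) (p : ↥(Ybase k ε) × ℝ) : PhiA ε p ∈ torus ε := by
  have h : (p.1.1.1 ^ 2 - 2 * ε) ^ 2 + ‖p.1.1.2‖ ^ 2 < ε ^ 2 := p.1.2.2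
  show (‖(PhiA ε p).1‖ ^ 2 - 2 * ε) ^ 2 + ‖(PhiA ε p).2‖ ^ 2 < ε ^ 2
  rw [Helper35.PhiA_fst_norm]
  exact h

/-- Spec `PhiA_mem` -/
theorem PhiA_mem_core {s w2 ε : ℝ} (hp : GoodParams s w2 ε) (p : ↥(Ybase k ε) × ℝ) :
    PhiA ε p ∈ torus ε ∧ PhiA ε p ∈ Adom s w2 :=
  ⟨PhiA_mem_torus ε p, torus_subset_Adom hp (PhiA_mem_torus ε p)⟩

/-! ### base vertices lie outside the torus -/

theorem shL23_ge_one' {s : ℝ} (hs : 0 < s) {w : ℝ} (hw : 0 < w) (hw1 : w ≤ 1) :
    1 ≤ shL23 s w := by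
  unfold shL23
  have h : 0 < 2 / (s + 2) := by positivity
  exact Real.one_le_rpow_of_pos_of_le_one_of_nonpos hw hw1 (by linarith)

theorem bvert_notMem_torus {s ε : ℝ} (hs : 0 < s) (hε : 0 < ε) (hε1 : ε ≤ 1 / 16) {w σ : ℝ}
    (hw : 0 < w) (hw1 : w ≤ 1) (hσ : σ ^ 2 = 1) {x : MS k} (hx : x.1 ≠ 0) :
    bvert s w σ x ∉ torus ε := by
  intro hmem
  obtain ⟨-, h2, -⟩ := Helper82.torus_bounds hε hmem
  have hr : 0 < ‖x.1‖ := norm_pos_iff.2 hx
  have hL := shL23_ge_one' hs hw hw1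
  have e : ‖(bvert s w σ x).1‖ ^ 2 =
      ‖x.1‖ ^ 2 * ((shP w / (2 * w ^ 2)) ^ 2 + (σ * shL23 s w / (2 * ‖x.1‖)) ^ 2) := by
    show ‖x.1 * betaC s w σ ‖x.1‖‖ ^ 2 = _
    rw [norm_mul, mul_pow, Helper42.normSq_betaC]
  have e2 : ‖x.1‖ ^ 2 * (σ * shL23 s w / (2 * ‖x.1‖)) ^ 2 = σ ^ 2 * (shL23 s w) ^ 2 / 4 := by
    field_simp
    ring
  have h4 : (1:ℝ) / 4 ≤ ‖(bvert s w σ x).1‖ ^ 2 := by
    rw [e, mul_add, e2, hσ]
    have h5 : 0 ≤ ‖x.1‖ ^ 2 * (shP w / (2 * w ^ 2)) ^ 2 := by positivity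
    nlinarith
  linarith

theorem bplus_notMem_torus {s w2 ε : ℝ} (hp : GoodParams s w2 ε) {x : MS k} (hx : x ∈ torus ε) :
    bplus s w2 x ∉ torus ε :=
  bvert_notMem_torus hp.hs hp.hε hp.hε1 (wA_pos s w2 x) (wA_le_one s w2 hp.hw2 hp.hw2' x)
    (by norm_num) (Helper35.torus_fst_ne ε x hx)

theorem bminus_notMem_torus {s w2 ε : ℝ} (hp : GoodParams s w2 ε) {x : MS k}
    (hx : x ∈ torus ε) : bminus s w2 x ∉ torus ε :=
  bvert_notMem_torus hp.hs hp.hε hp.hε1 (wA_pos s w2 x) (wA_le_one s w2 hp.hw2 hp.hw2' x)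
    (by norm_num) (Helper35.torus_fst_ne ε x hx)

/-- Spec `geomH_disj` -/
theorem geomH_disj_core {s w2 ε : ℝ} (hp : GoodParams s w2 ε) (p q : ↥(Ybase k ε) × ℝ) :
    PhiA ε p ≠ PhiB s w2 ε q := by
  intro h
  have h1 : PhiA ε p ∈ torus ε := PhiA_mem_torus ε p
  rw [h] at h1
  exact bplus_notMem_torus hp (PhiA_mem_torus ε q) h1

/-! ### periodicity -/

/-- Spec `geomH_perA` -/
theorem geomH_perA_core (ε : ℝ) (b : ↥(Ybase k ε)) (t : ℝ) :
    PhiA ε (b, t + 1) = PhiA ε (b, t) :=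
  Helper35.rotM_add_one t _

/-- Spec `geomH_perB` -/
theorem geomH_perB_core (s w2 ε : ℝ) (b : ↥(Ybase k ε)) (t : ℝ) :
    PhiB s w2 ε (b, t + 1) = PhiB s w2 ε (b, t) :=
  congrArg (bplus s w2) (geomH_perA_core ε b t)

/-! ### the cost -/

theorem continuous_dM : Continuous (fun p : MS k × MS k => dM p.1 p.2) := by
  unfold dM
  exact Real.continuous_sqrt.comp (by fun_prop)

theorem measurable_pairCostM (s : ℝ) : Measurable (fun p : MS k × MS k => pairCostM s p.1 p.2) := by
  have h1 : Measurable (fun p : MS k × MS k => ENNReal.ofReal (dM p.1 p.2)) :=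
    ENNReal.measurable_ofReal.comp (continuous_dM (k := k)).measurable
  have h2 : Measurable (fun p : MS k × MS k => ENNReal.ofReal (dM p.1 p.2) ^ (-s)) :=
    h1.pow_const (-s)
  exact h2

/-- Spec `geomH_measc` -/
theorem geomH_measc_core (s : ℝ) : Measurable (tripleCostM (k := k) s) := by
  have h := measurable_pairCostM (k := k) s
  have h12 : Measurable (fun p : MS k × MS k × MS k => pairCostM s p.1 p.2.1) :=
    h.comp (f := fun p : MS k × MS k × MS k => (p.1, p.2.1))
      (measurable_fst.prodMk (measurable_fst.comp measurable_snd))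
  have h13 : Measurable (fun p : MS k × MS k × MS k => pairCostM s p.1 p.2.2) :=
    h.comp (f := fun p : MS k × MS k × MS k => (p.1, p.2.2))
      (measurable_fst.prodMk (measurable_snd.comp measurable_snd))
  have h23 : Measurable (fun p : MS k × MS k × MS k => pairCostM s p.2.1 p.2.2) :=
    h.comp (f := fun p : MS k × MS k × MS k => (p.2.1, p.2.2))
      ((measurable_fst.comp measurable_snd).prodMk (measurable_snd.comp measurable_snd))
  have e : tripleCostM (k := k) s = fun p : MS k × MS k × MS k =>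
      pairCostM s p.1 p.2.1 + pairCostM s p.1 p.2.2 + pairCostM s p.2.1 p.2.2 := rfl
  rw [e]
  exact (h12.add h13).add h23

/-! ### the second base vertex -/

theorem betaC_neg_eq_conj (s w r : ℝ) :
    betaC s w (-1) r = (starRingEnd ℂ) (betaC s w 1 r) := by
  apply Complex.ext
  · rfl
  · show -1 * shL23 s w / (2 * r) = -(1 * shL23 s w / (2 * r))
    ring

theorem exp_arg_conj_div_mul (β : ℂ) :
    Complex.exp ((Complex.arg ((starRingEnd ℂ) β / β) : ℂ) * Complex.I) * β =
      (starRingEnd ℂ) β := by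
  by_cases hβ : β = 0
  · simp [hβ]
  · have hn : ‖(starRingEnd ℂ) β / β‖ = 1 := by
      rw [norm_div, Complex.norm_conj, div_self (norm_ne_zero_iff.2 hβ)]
    have h := Complex.norm_mul_exp_arg_mul_I ((starRingEnd ℂ) β / β)
    rw [hn, Complex.ofReal_one, one_mul] at h
    rw [h, div_mul_cancel₀ _ hβ]

theorem exp_turn_arg (ω : ℂ) :
    Complex.exp (2 * (Real.pi : ℂ) * ((Complex.arg ω / (2 * Real.pi) : ℝ) : ℂ) * Complex.I) =
      Complex.exp ((Complex.arg ω : ℂ) * Complex.I) := by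
  congr 1
  have hpi : (Real.pi : ℂ) ≠ 0 := Complex.ofReal_ne_zero.mpr Real.pi_ne_zero
  push_cast
  field_simp

/-- the second base vertex is the first base vertex of the apex rotated by the angle of
`omegaG` (valid for all parameters) -/
theorem bminus_eq_bplus_rotM (s w2 : ℝ) (x : MS k) :
    bminus s w2 x = bplus s w2 (rotM (Complex.arg (omegaG s w2 x) / (2 * Real.pi)) x) := by
  rw [Helper76.bplus_rotM]
  unfold bminus bplus bvert rotM omegaG
  refine Prod.ext ?_ rfl
  simp only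
  rw [exp_turn_arg, betaC_neg_eq_conj, mul_left_comm, exp_arg_conj_div_mul]

theorem omegaG_rotM (s w2 t : ℝ) (x : MS k) : omegaG s w2 (rotM t x) = omegaG s w2 x := by
  unfold omegaG
  rw [Helper76.wA_rotM, Helper76.rotM_fst_norm]

/-- Spec `PhiB_shift` -/
theorem PhiB_shift_core (s w2 ε : ℝ) (b : ↥(Ybase k ε)) (t : ℝ) :
    PhiB s w2 ε (b, t + gG s w2 ε b) = bminus s w2 (PhiA ε (b, t)) := by
  have e1 : PhiB s w2 ε (b, t + gG s w2 ε b) = bplus s w2 (PhiA ε (b, t + gG s w2 ε b)) := rfl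
  have e2 : omegaG s w2 (PhiA ε (b, t)) = omegaG s w2 (((b.1.1 : ℝ) : ℂ), b.1.2) :=
    omegaG_rotM s w2 t _
  have e3 : gG s w2 ε b = Complex.arg (omegaG s w2 (PhiA ε (b, t))) / (2 * Real.pi) := by
    rw [e2]; rfl
  rw [e1, Helper82.PhiA_add, bminus_eq_bplus_rotM, ← e3]

/-! ### measurability (with measurability of `wA`, package RG1, as a hypothesis) -/

/-- Spec `geomH_measB` -/
theorem geomH_measB_core (s w2 ε : ℝ) (hε : 0 < ε) (hwA : Measurable (wA (k := k) s w2)) :
    Measurable (PhiB (k := k) s w2 ε) :=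
  (Helper42.bplus_measurable_of s w2 hwA).comp (Helper35.measurable_PhiA ε hε)

/-- Spec `geomH_measg` -/
theorem geomH_measg_core (s w2 ε : ℝ) (hwA : Measurable (wA (k := k) s w2)) :
    Measurable (gG (k := k) s w2 ε) := by
  have h1 : Measurable (fun b : ↥(Ybase k ε) => ((((b.1.1 : ℝ) : ℂ), b.1.2) : MS k)) := by
    refine Measurable.prodMk ?_ ?_
    · exact Complex.measurable_ofReal.comp (measurable_fst.comp measurable_subtype_coe)
    · exact measurable_snd.comp measurable_subtype_coe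
  unfold gG
  exact (Complex.measurable_arg.comp
    ((Helper42.omegaG_measurable_of s w2 hwA).comp h1)).div_const _

theorem measurable_UB (s : ℝ) : Measurable (UB (k := k) s) := by
  have h : Continuous (UB (k := k) s) := by unfold UB; fun_prop
  exact h.measurable

theorem measurable_u1_wA (s w2 : ℝ) (hwA : Measurable (wA (k := k) s w2)) :
    Measurable (fun x : MS k => u1 s (wA s w2 x) x) := by
  have hP : Measurable fun x : MS k => shP (wA s w2 x) := by
    unfold shP; exact measurable_const.sub (measurable_const.mul (hwA.pow_const 2))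
  have hG : Measurable fun x : MS k => shG s (wA s w2 x) := by
    unfold shG
    exact (measurable_const.mul (hP.pow_const _)).add (hwA.pow_const _)
  have hn1 : Measurable fun x : MS k => ‖x.1‖ ^ 2 := (measurable_fst.norm).pow_const 2
  have hn2 : Measurable fun x : MS k => ‖x.2‖ ^ 2 := (measurable_snd.norm).pow_const 2
  unfold u1
  exact (measurable_const.mul hG).sub ((measurable_const.mul hP).mul
    ((hn1.div (hwA.pow_const 2)).add ((measurable_const.mul hn2).div
      ((measurable_const.mul (hwA.pow_const 2)).add measurable_const))))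

/-- Spec `geomH_measu` -/
theorem geomH_measu_core (s w2 ε : ℝ) (hwA : Measurable (wA (k := k) s w2)) :
    Measurable (uG (k := k) s w2 ε) := by
  unfold uG
  exact Measurable.ite (Helper35.isOpen_torus ε).measurableSet (measurable_u1_wA s w2 hwA)
    (measurable_UB s)

/-! ### injectivity of the base parametrisation (with `psiPlus ∘ bplus = id`, package RG3) -/

/-- Spec `geomH_injB` -/
theorem geomH_injB_core {s w2 ε : ℝ} (hp : GoodParams s w2 ε)
    (hpsi : ∀ x : MS k, x ∈ Adom s w2 → psiPlus s w2 (bplus s w2 x) = x)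
    (b : ↥(Ybase k ε)) (t : ℝ) (b' : ↥(Ybase k ε)) (t' : ℝ) (ht : t ∈ Ico (0:ℝ) 1)
    (ht' : t' ∈ Ico (0:ℝ) 1) (h : PhiB s w2 ε (b, t) = PhiB s w2 ε (b', t')) :
    b = b' ∧ t = t' := by
  have h' : bplus s w2 (PhiA ε (b, t)) = bplus s w2 (PhiA ε (b', t')) := h
  have hA : PhiA ε (b, t) = PhiA ε (b', t') := by
    rw [← hpsi _ (PhiA_mem_core hp (b, t)).2, h', hpsi _ (PhiA_mem_core hp (b', t')).2]
  exact Helper35.PhiA_inj ε hp.hε b t b' t' ht ht' hA

end HYaCore

end Crest.Agent.Helper91
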