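/-
helper91 — S0175 project, Part II, package HY-a: the structure / measurability statements of
`Crest.Agent.Helper32.Spec` (section HY), verbatim (same names, binders and order), proved.
Proofs are in `HYaCore.lean`; the only inputs from other packages are
`Helper62.wA_measurable` (RG1) and `Helper42.psiPlus_bplus` (RG3).  No Spec import.
-/
import Crest.Agent.Helper91.Geom.HYaCore
import Crest.Agent.Helper62.Geom.RG1
import Crest.Agent.Helper42.Geom.RG3

set_option autoImplicit false
set_option linter.unusedSectionVars false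
open MeasureTheory Set
open scoped ENNReal
open Crest.AnalysisR.OT
open Crest.Agent.Helper32

namespace Crest.Agent.Helper91

section HY
variable {k : ℕ} (s w2 ε : ℝ) (hp : GoodParams s w2 ε)
include hp

/-- the apexes lie in the torus, inside the domain of the contact maps -/
theorem PhiA_mem (p : ↥(Ybase k ε) × ℝ) : PhiA ε p ∈ torus ε ∧ PhiA ε p ∈ Adom s w2 :=
  PhiA_mem_core hp p

/-- HY-a -/
theorem geomH_measB : Measurable (PhiB (k := k) s w2 ε) :=
  geomH_measB_core s w2 ε hp.hε (Helper62.wA_measurable s w2 hp.hs hp.hw2 hp.hw2')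

theorem geomH_perA (b : ↥(Ybase k ε)) (t : ℝ) : PhiA ε (b, t + 1) = PhiA ε (b, t) :=
  geomH_perA_core ε b t

theorem geomH_perB (b : ↥(Ybase k ε)) (t : ℝ) : PhiB s w2 ε (b, t + 1) = PhiB s w2 ε (b, t) :=
  geomH_perB_core s w2 ε b t

theorem geomH_injB (b : ↥(Ybase k ε)) (t : ℝ) (b' : ↥(Ybase k ε)) (t' : ℝ) (ht : t ∈ Ico (0:ℝ) 1)
    (ht' : t' ∈ Ico (0:ℝ) 1) (h : PhiB s w2 ε (b, t) = PhiB s w2 ε (b', t')) : b = b' ∧ t = t' :=
  geomH_injB_core hp
    (fun x hx => (Helper42.psiPlus_bplus s w2 hp.hs hp.hw2 hp.hw2' x hx).1) b t b' t' ht ht' h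

theorem geomH_disj (p q : ↥(Ybase k ε) × ℝ) : PhiA ε p ≠ PhiB s w2 ε q :=
  geomH_disj_core hp p q

theorem geomH_measg : Measurable (gG (k := k) s w2 ε) :=
  geomH_measg_core s w2 ε (Helper62.wA_measurable s w2 hp.hs hp.hw2 hp.hw2')

theorem geomH_measc : Measurable (tripleCostM (k := k) s) :=
  geomH_measc_core s

theorem geomH_symm12 (x y z : MS k) : tripleCostM s (y, x, z) = tripleCostM s (x, y, z) :=
  Helper82.tripleCostM_symm12 s x y z

theorem geomH_symm23 (x y z : MS k) : tripleCostM s (x, z, y) = tripleCostM s (x, y, z) :=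
  Helper82.tripleCostM_symm23 s x y z

theorem geomH_measu : Measurable (uG (k := k) s w2 ε) :=
  geomH_measu_core s w2 ε (Helper62.wA_measurable s w2 hp.hs hp.hw2 hp.hw2')

/-- the second base vertex -/
theorem PhiB_shift (b : ↥(Ybase k ε)) (t : ℝ) :
    PhiB s w2 ε (b, t + gG s w2 ε b) = bminus s w2 (PhiA ε (b, t)) :=
  PhiB_shift_core s w2 ε b t

end HY

end Crest.Agent.Helper91
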